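import Vale.Agent.P272.K.Inv.Consts
import Mathlib.Analysis.Convex.Integral
import Mathlib.MeasureTheory.Integral.Average
import Mathlib.Analysis.Convex.SpecificFunctions.Basic

/-! QN/HA2, local part: consequences of the sub-mean value inequality. -/

open scoped ContDiff ComplexOrder Topology
open MeasureTheory Set Filter Metric

noncomputable section

namespace Vale.Agent.P272.K.QN

/-- The sub-mean value inequality on polydiscs (sup-norm balls), block HA1. -/
def SubMean (n : ℕ) : Prop :=
  ∀ (f : Cm n → ℝ) (c : Cm n) (R A : ℝ), 0 < R → 0 ≤ A →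
    (∀ z ∈ closedBall c R, ContDiffAt ℝ ∞ f z) →
    (∀ z ∈ closedBall c R, ∀ k, -A ≤ (cHess f z k k).re) →
    f c ≤ (⨍ z in ball c R, f z) + A * n * R ^ 2

variable {n : ℕ}

/-- the local situation: `u ≤ 0` smooth near the closed polydisc, with `i∂∂̄u ≥ -A'` -/
structure Loc (u : Cm n → ℝ) (c : Cm n) (r A : ℝ) : Prop where
  smooth : ∀ z ∈ closedBall c r, ContDiffAt ℝ ∞ u z
  diag : ∀ z ∈ closedBall c r, ∀ k, -A ≤ (cHess u z k k).re
  nonpos : ∀ z ∈ closedBall c r, u z ≤ 0

lemma Loc.mono {u : Cm n → ℝ} {c y : Cm n} {r s A : ℝ} (h : Loc u c r A)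
    (hs : closedBall y s ⊆ closedBall c r) : Loc u y s A :=
  ⟨fun z hz => h.smooth z (hs hz), fun z hz => h.diag z (hs hz), fun z hz => h.nonpos z (hs hz)⟩

lemma Loc.integrableOn {u : Cm n → ℝ} {c : Cm n} {r A : ℝ} (h : Loc u c r A) :
    IntegrableOn u (closedBall c r) :=
  ContinuousOn.integrableOn_compact (isCompact_closedBall c r)
    fun z hz => (h.smooth z hz).continuousAt.continuousWithinAt

lemma vol_ball_pos (c : Cm n) {r : ℝ} (hr : 0 < r) : 0 < (volume : Measure (Cm n)).real (ball c r) :=
  ENNReal.toReal_pos (measure_ball_pos volume c hr).ne' measure_ball_lt_top.ne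

/-- the constant of the next lemma -/
def locK (n : ℕ) (R A M : ℝ) : ℝ :=
  (volume : Measure (Cm n)).real (ball 0 (3 * R)) * (|M| + A * n * (3 * R) ^ 2)

lemma locK_nonneg {R A M : ℝ} (hA : 0 ≤ A) : 0 ≤ locK n R A M := by
  unfold locK; positivity

lemma Loc.integral_le (HA : SubMean n) {u : Cm n → ℝ} {c : Cm n} {R A : ℝ} (hR : 0 < R)
    (hA : 0 ≤ A) (h : Loc u c (4 * R) A) {y : Cm n} (hy : y ∈ closedBall c R) {M : ℝ}
    (hM : -M ≤ u y) : ∫ z in ball c (2 * R), -u z ≤ locK n R A M := by
  have hyc : dist y c ≤ R := hy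
  have h3 : closedBall y (3 * R) ⊆ closedBall c (4 * R) := by
    apply closedBall_subset_closedBall'; linarith
  have hy3 : Loc u y (3 * R) A := h.mono h3
  have hsm := HA u y (3 * R) A (by positivity) hA hy3.smooth hy3.diag
  have hsub : ball c (2 * R) ⊆ ball y (3 * R) := by
    apply ball_subset_ball'; rw [dist_comm]; linarith
  have hint : IntegrableOn (fun z => -u z) (ball y (3 * R)) :=
    (hy3.integrableOn.mono_set ball_subset_closedBall).neg
  have h1 : ∫ z in ball c (2 * R), -u z ≤ ∫ z in ball y (3 * R), -u z := by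
    refine setIntegral_mono_set hint ?_ hsub.eventuallyLE
    filter_upwards [self_mem_ae_restrict measurableSet_ball] with z hz
    have := hy3.nonpos z (ball_subset_closedBall hz)
    simpa using this
  refine h1.trans ?_
  have hv : 0 < (volume : Measure (Cm n)).real (ball y (3 * R)) := vol_ball_pos y (by positivity)
  have hv' : (volume : Measure (Cm n)).real (ball y (3 * R)) =
      (volume : Measure (Cm n)).real (ball 0 (3 * R)) := by
    simp only [measureReal_def]
    rw [Measure.addHaar_ball_center]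
  rw [setAverage_eq, smul_eq_mul] at hsm
  rw [integral_neg]
  unfold locK
  rw [← hv']
  set V := (volume : Measure (Cm n)).real (ball y (3 * R))
  set I := ∫ z in ball y (3 * R), u z
  have h2 : -M ≤ V⁻¹ * I + A * n * (3 * R) ^ 2 := hM.trans hsm
  have h3 : V * (-M) ≤ I + V * (A * n * (3 * R) ^ 2) := by
    have := mul_le_mul_of_nonneg_left h2 hv.le
    rw [mul_add, ← mul_assoc, mul_inv_cancel₀ hv.ne', one_mul] at this
    exact this
  have h4 : V * M ≤ V * |M| := mul_le_mul_of_nonneg_left (le_abs_self M) hv.le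
  nlinarith

/-- a lower bound at one point propagates to a point of any small ball -/
lemma Loc.exists_point (HA : SubMean n) {u : Cm n → ℝ} {c : Cm n} {R A : ℝ} (hR : 0 < R)
    (hA : 0 ≤ A) (h : Loc u c (4 * R) A) {y : Cm n} (hy : y ∈ closedBall c R) {M : ℝ}
    (hM : -M ≤ u y) {p : Cm n} {r : ℝ} (hr : 0 < r) (hp : ball p r ⊆ ball c (2 * R)) :
    ∃ q ∈ ball p r, -(locK n R A M / (volume : Measure (Cm n)).real (ball p r)) ≤ u q := by
  have hv := vol_ball_pos p hr
  have hsub4 : ball c (2 * R) ⊆ closedBall c (4 * R) :=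
    ball_subset_closedBall.trans (closedBall_subset_closedBall (by linarith))
  have hint : IntegrableOn (fun z => -u z) (ball c (2 * R)) :=
    (h.integrableOn.mono_set hsub4).neg
  obtain ⟨q, hq, hq'⟩ := exists_le_setAverage (measure_ball_pos volume p hr).ne'
    measure_ball_lt_top.ne (hint.mono_set hp)
  refine ⟨q, hq, ?_⟩
  have h1 : ∫ z in ball p r, -u z ≤ locK n R A M := by
    refine le_trans (setIntegral_mono_set hint ?_ hp.eventuallyLE) (h.integral_le HA hR hA hy hM)
    filter_upwards [self_mem_ae_restrict measurableSet_ball] with z hz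
    have := h.nonpos z (hsub4 hz)
    simpa using this
  rw [setAverage_eq, smul_eq_mul] at hq'
  have h2 : ((volume : Measure (Cm n)).real (ball p r))⁻¹ * ∫ z in ball p r, -u z ≤
      locK n R A M / (volume : Measure (Cm n)).real (ball p r) := by
    rw [inv_mul_eq_div]
    exact div_le_div_of_nonneg_right h1 hv.le
  linarith

/-- a lower bound at one point bounds `∫ exp (α u)` from below -/
lemma Loc.exp_integral (HA : SubMean n) {u : Cm n → ℝ} {c : Cm n} {R A : ℝ} (hR : 0 < R)
    (hA : 0 ≤ A) (h : Loc u c (4 * R) A) {y : Cm n} (hy : y ∈ closedBall c R) {M : ℝ}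
    (hM : -M ≤ u y) {α : ℝ} (hα : 0 ≤ α) :
    (volume : Measure (Cm n)).real (ball c (2 * R)) *
      Real.exp (-(α * (locK n R A M / (volume : Measure (Cm n)).real (ball c (2 * R))))) ≤
      ∫ z in ball c (2 * R), Real.exp (α * u z) := by
  have h2R : 0 < 2 * R := by positivity
  have hv := vol_ball_pos c h2R
  have hsub4 : ball c (2 * R) ⊆ closedBall c (4 * R) :=
    ball_subset_closedBall.trans (closedBall_subset_closedBall (by linarith))
  have hint : IntegrableOn u (ball c (2 * R)) := h.integrableOn.mono_set hsub4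
  have hc4 : ContinuousOn u (closedBall c (4 * R)) := fun z hz =>
    (h.smooth z hz).continuousAt.continuousWithinAt
  have hexp : IntegrableOn (fun z => Real.exp (α * u z)) (ball c (2 * R)) := by
    refine IntegrableOn.mono_set ?_ hsub4
    exact ContinuousOn.integrableOn_compact (isCompact_closedBall c _)
      (Real.continuous_exp.comp_continuousOn (continuousOn_const.mul hc4))
  have hJ : Real.exp (⨍ z in ball c (2 * R), α * u z) ≤
      ⨍ z in ball c (2 * R), Real.exp (α * u z) :=
    convexOn_exp.map_set_average_le Real.continuous_exp.continuousOn isClosed_univ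
      (measure_ball_pos volume c h2R).ne' measure_ball_lt_top.ne (by simp)
      (hint.const_mul α) hexp
  have h1 := h.integral_le HA hR hA hy hM
  rw [integral_neg] at h1
  rw [setAverage_eq, setAverage_eq, smul_eq_mul, smul_eq_mul, integral_const_mul] at hJ
  set V := (volume : Measure (Cm n)).real (ball c (2 * R))
  set I := ∫ z in ball c (2 * R), u z
  set J := ∫ z in ball c (2 * R), Real.exp (α * u z)
  have h2 : -(α * (locK n R A M / V)) ≤ V⁻¹ * (α * I) := by
    have : -(locK n R A M) ≤ I := by linarith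
    have h3 : -(locK n R A M) / V ≤ I / V := div_le_div_of_nonneg_right this hv.le
    have h4 := mul_le_mul_of_nonneg_left h3 hα
    have h5 : V⁻¹ * (α * I) = α * (I / V) := by field_simp
    rw [h5]
    calc -(α * (locK n R A M / V)) = α * (-(locK n R A M) / V) := by ring
      _ ≤ _ := h4
  have h3 : Real.exp (-(α * (locK n R A M / V))) ≤ V⁻¹ * J :=
    (Real.exp_le_exp.2 h2).trans hJ
  calc V * Real.exp (-(α * (locK n R A M / V))) ≤ V * (V⁻¹ * J) :=
        mul_le_mul_of_nonneg_left h3 hv.le
    _ = J := by rw [← mul_assoc, mul_inv_cancel₀ hv.ne', one_mul]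

end Vale.Agent.P272.K.QN
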