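import Vale.Agent.P272.K.QN.H947.Prop
import Vale.Agent.P272.K.QN.Defs

/-! QN: the block HA from the sub-mean value inequality. -/

open scoped Manifold ContDiff ComplexOrder Topology
open MeasureTheory Set Filter Metric

noncomputable section

namespace Vale.Agent.P272.K.QN

open Vale.Agent.P272.K

variable {n : ℕ} {X : Type} [TopologicalSpace X] [ChartedSpace (Cm n) X]
  [IsManifold 𝓘(ℂ, Cm n) ω X] [T2Space X] [CompactSpace X] [ConnectedSpace X]

theorem haBlock_of_subMean (HA : SubMean n) : HABlock n X := by
  intro _ w hw A e he z₀ r hr hsub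
  have h4 : 4 * (r / 4) = r := by ring
  obtain ⟨δ, hδ, h⟩ := exists_ball_exp_lower (A := |A|) HA hw (abs_nonneg A) 0 (α := 1) zero_le_one
    he (c := z₀) (R := r / 4) (by positivity) (by rw [h4]; exact hsub)
  refine ⟨δ, hδ, fun u hu hpsd hnp hz => ?_⟩
  have hq : QPsh w |A| u := by
    refine ⟨hu, fun e' x hx => ?_, hnp⟩
    have h1 := hpsd e' x hx
    have h2 : (((|A| - A : ℝ) : ℂ) • w e' (e' x)).PosSemidef := by
      refine (hw.posDef e' x hx).posSemidef.smul ?_
      exact_mod_cast sub_nonneg.2 (le_abs_self A)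
    have h3 := h1.add h2
    have h4 : cHess (fun z => u (e'.symm z)) (e' x) + (A : ℂ) • w e' (e' x) +
        ((|A| - A : ℝ) : ℂ) • w e' (e' x) =
        cHess (fun z => u (e'.symm z)) (e' x) + ((|A| : ℝ) : ℂ) • w e' (e' x) := by
      rw [add_assoc, ← add_smul]
      congr 2
      push_cast
      ring
    rwa [h4] at h3
  obtain ⟨x, hx⟩ := hz
  have h1 := h u hq ⟨x, by rw [hx]; simp⟩
  simp only [one_mul] at h1
  refine h1.trans ?_
  have hcont : Continuous u := INT.SmoothFn.continuous hu
  refine setIntegral_mono_set ?_ ?_ ?_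
  · refine IntegrableOn.mono_set ?_ (ball_subset_closedBall (x := z₀) (ε := r))
    refine ContinuousOn.integrableOn_compact (isCompact_closedBall _ _) ?_
    exact Real.continuous_exp.comp_continuousOn
      (hcont.comp_continuousOn (e.continuousOn_symm.mono hsub))
  · exact Eventually.of_forall fun z => (Real.exp_pos _).le
  · exact (ball_subset_ball (by linarith)).eventuallyLE

end Vale.Agent.P272.K.QN
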