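import Vale.Agent.P272.K.QN.H947.Local
import Vale.Agent.P272.K.INT.Global

/-! QN/HA2: propagation of lower bounds for `A w`-plurisubharmonic functions on a compact
connected manifold, and the lower bound of weighted exponential integrals. -/

open scoped Manifold ContDiff ComplexOrder Topology
open MeasureTheory Set Filter Metric

noncomputable section

namespace Vale.Agent.P272.K.QN

open Vale.Agent.P272.K

variable {n : ℕ} {X : Type*} [TopologicalSpace X] [ChartedSpace (Cm n) X]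

/-- smooth functions `u ≤ 0` with `A w + i∂∂̄u ≥ 0` -/
structure QPsh (w : Chart n X → Cm n → Matrix (Fin n) (Fin n) ℂ) (A : ℝ) (u : X → ℝ) : Prop where
  smooth : SmoothFn (n := n) u
  psd : ∀ e x, At e x → (cHess (fun z => u (e.symm z)) (e x) + (A : ℂ) • w e (e x)).PosSemidef
  nonpos : ∀ x, u x ≤ 0

variable {w : Chart n X → Cm n → Matrix (Fin n) (Fin n) ℂ} {A : ℝ}

/-- in a closed ball of a chart the Hessians are bounded below uniformly -/
lemma exists_loc (hw : IsHermitian w) (hA : 0 ≤ A) {e : Chart n X} (he : e ∈ atlas (Cm n) X)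
    {c : Cm n} {r : ℝ} (hr : closedBall c r ⊆ e.target) :
    ∃ A' : ℝ, 0 ≤ A' ∧ ∀ u : X → ℝ, QPsh w A u → Loc (fun z => u (e.symm z)) c r A' := by
  have h1 : ∀ k : Fin n, ∃ B : ℝ, ∀ z ∈ closedBall c r, ‖w e z k k‖ ≤ B := fun k =>
    (isCompact_closedBall c r).exists_bound_of_continuousOn
      ((hw.continuousOn_entry he k k).mono hr)
  choose B hB using h1
  refine ⟨A * ∑ k, |B k|, mul_nonneg hA (Finset.sum_nonneg fun k _ => abs_nonneg _),
    fun u hu => ⟨fun z hz => ?_, fun z hz k => ?_, fun z hz => hu.nonpos _⟩⟩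
  · have := hu.smooth e (e.symm z) (At.of_target he (hr hz))
    rwa [e.right_inv (hr hz)] at this
  · have h2 := hu.psd e (e.symm z) (At.of_target he (hr hz))
    rw [e.right_inv (hr hz)] at h2
    have h3 := h2.diag_nonneg (i := k)
    have h4 : 0 ≤ (cHess (fun z => u (e.symm z)) z k k).re + A * (w e z k k).re := by
      have := (Complex.le_def.1 h3).1
      simpa [Matrix.add_apply, Matrix.smul_apply, smul_eq_mul, Complex.mul_re] using this
    have h5 : (w e z k k).re ≤ ∑ k, |B k| :=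
      ((Complex.re_le_norm _).trans ((hB k z hz).trans (le_abs_self _))).trans
        (Finset.single_le_sum (f := fun k => |B k|) (fun i _ => abs_nonneg _) (Finset.mem_univ k))
    have h6 := mul_le_mul_of_nonneg_left h5 hA
    linarith

/-- every point has a chart ball -/
lemma exists_chart_ball (x : X) : ∃ e : Chart n X, At e x ∧ ∃ R : ℝ, 0 < R ∧
    closedBall (e x) (4 * R) ⊆ e.target := by
  refine ⟨chartAt (Cm n) x, ⟨chart_mem_atlas _ x, mem_chart_source _ x⟩, ?_⟩
  obtain ⟨R, hR, h⟩ := Metric.nhds_basis_closedBall.mem_iff.1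
    ((chartAt (Cm n) x).open_target.mem_nhds ((chartAt (Cm n) x).map_source (mem_chart_source _ x)))
  exact ⟨R / 4, by positivity, by rwa [mul_div_cancel₀ R (by norm_num)]⟩

/-- `U` is reached from a neighbourhood of `x` -/
def Good (w : Chart n X → Cm n → Matrix (Fin n) (Fin n) ℂ) (A : ℝ) (U : Set X) (x : X) : Prop :=
  ∃ V ∈ 𝓝 x, ∀ M₀ : ℝ, ∃ M : ℝ, ∀ u : X → ℝ, QPsh w A u → (∃ y ∈ V, -M₀ ≤ u y) →
    ∃ q ∈ U, -M ≤ u q

lemma isOpen_good (w : Chart n X → Cm n → Matrix (Fin n) (Fin n) ℂ) (A : ℝ) (U : Set X) :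
    IsOpen {x | Good w A U x} := by
  rw [isOpen_iff_mem_nhds]
  rintro x ⟨V, hV, h⟩
  filter_upwards [eventually_mem_nhds_iff.2 hV] with y hy
  exact ⟨V, hy, h⟩

lemma isClosed_good (HA : SubMean n) (hw : IsHermitian w) (hA : 0 ≤ A) (U : Set X) :
    IsClosed {x | Good w A U x} := by
  refine isClosed_of_closure_subset fun x hx => ?_
  obtain ⟨e, he, R, hR, hRt⟩ := exists_chart_ball (n := n) x
  obtain ⟨A', hA', hloc⟩ := exists_loc hw hA he.1 hRt
  have hVn : e.source ∩ e ⁻¹' (ball (e x) R) ∈ 𝓝 x :=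
    inter_mem (e.open_source.mem_nhds he.2)
      ((e.continuousAt he.2).preimage_mem_nhds (ball_mem_nhds _ hR))
  obtain ⟨x', hx'V, V', hV', hgood⟩ := mem_closure_iff_nhds.1 hx _ hVn
  have hat' : At e x' := ⟨he.1, hx'V.1⟩
  -- a small ball around `e x'` inside `V'`
  have hpre : e.symm ⁻¹' V' ∩ ball (e x) (2 * R) ∈ 𝓝 (e x') := by
    refine inter_mem ?_ (isOpen_ball.mem_nhds ?_)
    · refine (e.continuousAt_symm (e.map_source hx'V.1)).preimage_mem_nhds ?_
      rwa [e.left_inv hx'V.1]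
    · have : e x' ∈ ball (e x) R := hx'V.2
      exact ball_subset_ball (by linarith) this
  obtain ⟨r, hr, hrsub⟩ := Metric.mem_nhds_iff.1 hpre
  refine ⟨e.source ∩ e ⁻¹' (ball (e x) R), hVn, fun M₀ => ?_⟩
  obtain ⟨M, hM⟩ := hgood (locK n R A' M₀ / (volume : Measure (Cm n)).real (ball (e x') r))
  refine ⟨M, fun u hu hy => ?_⟩
  obtain ⟨y, hyV, hyM⟩ := hy
  have hyc : e y ∈ closedBall (e x) R := ball_subset_closedBall hyV.2
  have hyM' : -M₀ ≤ (fun z => u (e.symm z)) (e y) := by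
    show -M₀ ≤ u (e.symm (e y))
    rwa [e.left_inv hyV.1]
  obtain ⟨q, hq, hq'⟩ := (hloc u hu).exists_point HA hR hA' hyc hyM' hr
    (fun z hz => (hrsub hz).2)
  exact hM u hu ⟨e.symm q, (hrsub hq).1, hq'⟩

/-- **Propagation.** On a compact connected manifold: a uniform lower bound at a point of every
nonempty open set. -/
theorem exists_lower_point (HA : SubMean n) [CompactSpace X] [PreconnectedSpace X]
    (hw : IsHermitian w) (hA : 0 ≤ A) {U : Set X} (hU : IsOpen U) (hne : U.Nonempty) (C : ℝ) :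
    ∃ M : ℝ, ∀ u : X → ℝ, QPsh w A u → (∃ p, -C ≤ u p) → ∃ q ∈ U, -M ≤ u q := by
  have hclop : IsClopen {x | Good w A U x} := ⟨isClosed_good HA hw hA U, isOpen_good w A U⟩
  have hnon : {x | Good w A U x}.Nonempty := by
    obtain ⟨x, hx⟩ := hne
    exact ⟨x, U, hU.mem_nhds hx, fun M₀ => ⟨M₀, fun u _ h => h⟩⟩
  have huniv := hclop.eq_univ hnon
  have hall : ∀ x : X, Good w A U x := fun x => by
    have : x ∈ {x | Good w A U x} := huniv ▸ mem_univ x
    exact this
  choose V hV h using hall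
  choose M hM using fun x => h x C
  obtain ⟨t, ht⟩ := CompactSpace.elim_nhds_subcover V hV
  refine ⟨∑ x ∈ t, |M x|, fun u hu hp => ?_⟩
  obtain ⟨p, hp⟩ := hp
  have hpt : p ∈ ⋃ x ∈ t, V x := by rw [ht]; trivial
  simp only [mem_iUnion] at hpt
  obtain ⟨x, hxt, hpx⟩ := hpt
  obtain ⟨q, hq, hq'⟩ := hM x u hu ⟨p, hpx, hp⟩
  refine ⟨q, hq, le_trans ?_ hq'⟩
  have h1 : |M x| ≤ ∑ x ∈ t, |M x| :=
    Finset.single_le_sum (f := fun x => |M x|) (fun i _ => abs_nonneg _) hxt
  have h2 := le_abs_self (M x)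
  linarith

/-- a chart ball contained in a given open set -/
lemma exists_small_ball {U : Set X} (hU : IsOpen U) {x : X} (hx : x ∈ U) :
    ∃ e : Chart n X, At e x ∧ ∃ R : ℝ, 0 < R ∧ closedBall (e x) (4 * R) ⊆ e.target ∧
      ∀ z ∈ closedBall (e x) (4 * R), e.symm z ∈ U := by
  refine ⟨chartAt (Cm n) x, ⟨chart_mem_atlas _ x, mem_chart_source _ x⟩, ?_⟩
  set e := chartAt (Cm n) x
  have hxs : x ∈ e.source := mem_chart_source _ x
  have h1 : e.target ∩ e.symm ⁻¹' U ∈ 𝓝 (e x) := by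
    refine inter_mem (e.open_target.mem_nhds (e.map_source hxs)) ?_
    refine (e.continuousAt_symm (e.map_source hxs)).preimage_mem_nhds ?_
    rw [e.left_inv hxs]
    exact hU.mem_nhds hx
  obtain ⟨R, hR, h⟩ := Metric.nhds_basis_closedBall.mem_iff.1 h1
  have h4 : 4 * (R / 4) = R := by ring
  refine ⟨R / 4, by positivity, ?_, ?_⟩
  · rw [h4]; exact fun z hz => (h hz).1
  · rw [h4]; exact fun z hz => (h hz).2

/-- **Lower bound of exponential integrals in a chart ball** -/
theorem exists_ball_exp_lower (HA : SubMean n) [CompactSpace X] [PreconnectedSpace X]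
    (hw : IsHermitian w) (hA : 0 ≤ A) (C : ℝ) {α : ℝ} (hα : 0 ≤ α) {e : Chart n X}
    (he : e ∈ atlas (Cm n) X) {c : Cm n} {R : ℝ} (hR : 0 < R)
    (hc : closedBall c (4 * R) ⊆ e.target) :
    ∃ δ : ℝ, 0 < δ ∧ ∀ u : X → ℝ, QPsh w A u → (∃ p, -C ≤ u p) →
      δ ≤ ∫ z in ball c (2 * R), Real.exp (α * u (e.symm z)) := by
  obtain ⟨A', hA', hloc⟩ := exists_loc hw hA he hc
  have hcR : ball c R ⊆ e.target := (ball_subset_closedBall.trans
    (closedBall_subset_closedBall (by linarith))).trans hc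
  have hUo : IsOpen (e.source ∩ e ⁻¹' ball c R) := e.isOpen_inter_preimage isOpen_ball
  have hUn : (e.source ∩ e ⁻¹' ball c R).Nonempty := by
    refine ⟨e.symm c, e.map_target (hcR (mem_ball_self hR)), ?_⟩
    show e (e.symm c) ∈ ball c R
    rw [e.right_inv (hcR (mem_ball_self hR))]
    exact mem_ball_self hR
  obtain ⟨M, hM⟩ := exists_lower_point HA hw hA hUo hUn C
  refine ⟨_, mul_pos (vol_ball_pos c (by positivity : 0 < 2 * R)) (Real.exp_pos
    (-(α * (locK n R A' M / (volume : Measure (Cm n)).real (ball c (2 * R)))))), fun u hu hp => ?_⟩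
  obtain ⟨q, hq, hq'⟩ := hM u hu hp
  have hyc : e q ∈ closedBall c R := ball_subset_closedBall hq.2
  have hyM' : -M ≤ (fun z => u (e.symm z)) (e q) := by
    show -M ≤ u (e.symm (e q))
    rwa [e.left_inv hq.1]
  exact (hloc u hu).exp_integral HA hR hA' hyc hyM' hα

variable [IsManifold 𝓘(ℂ, Cm n) ω X] [T2Space X]

/-- **Lower bound of weighted exponential integrals over `X`** -/
theorem exists_intX_exp_lower (HA : SubMean n) [CompactSpace X] [PreconnectedSpace X]
    (hw : IsHermitian w) (hA : 0 ≤ A) (C : ℝ) {α : ℝ} (hα : 0 ≤ α)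
    {D : Chart n X → Cm n → ℝ} (hD : INT.IsDensity D) (hD0 : ∀ e x, At e x → 0 ≤ D e (e x))
    {e₀ : Chart n X} {x₀ : X} (h₀ : At e₀ x₀) (hpos : 0 < D e₀ (e₀ x₀)) :
    ∃ δ : ℝ, 0 < δ ∧ ∀ u : X → ℝ, QPsh w A u → (∃ p, -C ≤ u p) →
      δ ≤ INT.intX (fun e z => Real.exp (α * u (e.symm z)) * D e z) := by
  -- a ball around `e₀ x₀` on which `D e₀ ≥ d > 0`
  set d := D e₀ (e₀ x₀) / 2 with hd
  have hd0 : 0 < d := by positivity
  have hnh : {z | z ∈ e₀.target ∧ d < D e₀ z} ∈ 𝓝 (e₀ x₀) := by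
    refine inter_mem (e₀.open_target.mem_nhds h₀.mem_target) ?_
    have : d < D e₀ (e₀ x₀) := by rw [hd]; linarith
    exact (hD.cont e₀ x₀ h₀).eventually (lt_mem_nhds this)
  obtain ⟨R', hR', hsub⟩ := Metric.nhds_basis_closedBall.mem_iff.1 hnh
  set R := R' / 4 with hRdef
  have hR : 0 < R := by positivity
  have h4R : 4 * R = R' := by rw [hRdef]; ring
  have hcT : closedBall (e₀ x₀) (4 * R) ⊆ e₀.target := by
    rw [h4R]; exact fun z hz => (hsub hz).1
  obtain ⟨δ, hδ, hlow⟩ := exists_ball_exp_lower HA hw hA C hα h₀.1 hR hcT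
  refine ⟨d * δ, mul_pos hd0 hδ, fun u hu hp => ?_⟩
  have hucont : Continuous u := INT.SmoothFn.continuous hu.smooth
  -- cutoff
  set K : Set X := e₀.symm '' closedBall (e₀ x₀) (2 * R) with hK
  have hsub2 : closedBall (e₀ x₀) (2 * R) ⊆ closedBall (e₀ x₀) (4 * R) :=
    closedBall_subset_closedBall (by linarith)
  have hKc : IsCompact K := (isCompact_closedBall _ _).image_of_continuousOn
    (e₀.continuousOn_symm.mono (hsub2.trans hcT))
  set K4 : Set X := e₀.symm '' closedBall (e₀ x₀) (4 * R) with hK4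
  have hK4c : IsCompact K4 := (isCompact_closedBall _ _).image_of_continuousOn
    (e₀.continuousOn_symm.mono hcT)
  have hK4s : K4 ⊆ e₀.source := by
    rintro _ ⟨z, hz, rfl⟩; exact e₀.map_target (hcT hz)
  have hO : IsOpen (e₀.source ∩ e₀ ⁻¹' ball (e₀ x₀) (4 * R)) := e₀.isOpen_inter_preimage isOpen_ball
  have hKO : K ⊆ e₀.source ∩ e₀ ⁻¹' ball (e₀ x₀) (4 * R) := by
    rintro _ ⟨z, hz, rfl⟩
    have hzt := hcT (hsub2 hz)
    refine ⟨e₀.map_target hzt, ?_⟩
    show e₀ (e₀.symm z) ∈ ball (e₀ x₀) (4 * R)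
    rw [e₀.right_inv hzt]
    exact (closedBall_subset_ball (by linarith)) hz
  obtain ⟨χ, hχ1, hχ0, hχr⟩ := exists_continuous_zero_one_of_isClosed
    (s := (e₀.source ∩ e₀ ⁻¹' ball (e₀ x₀) (4 * R))ᶜ) (t := K) hO.isClosed_compl hKc.isClosed
    (disjoint_compl_left_iff_subset.2 hKO)
  -- the cut off density
  have hDu : INT.IsDensity (fun e z => Real.exp (α * u (e.symm z)) * D e z) :=
    hD.smul (f := fun x => Real.exp (α * u x)) (by fun_prop)
  have hDχ : INT.IsDensity (fun e z => χ (e.symm z) * (Real.exp (α * u (e.symm z)) * D e z)) :=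
    hDu.smul χ.continuous
  have hmono : INT.intX (fun e z => χ (e.symm z) * (Real.exp (α * u (e.symm z)) * D e z)) ≤
      INT.intX (fun e z => Real.exp (α * u (e.symm z)) * D e z) := by
    refine INT.intX_mono hDχ hDu fun e x hx => ?_
    have h1 : 0 ≤ Real.exp (α * u (e.symm (e x))) * D e (e x) :=
      mul_nonneg (Real.exp_pos _).le (hD0 e x hx)
    have h2 := (hχr (e.symm (e x))).2
    nlinarith
  refine le_trans ?_ hmono
  rw [INT.intX_of_support hDχ h₀.1 hK4c.isClosed hK4s]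
  · have hball : ball (e₀ x₀) (2 * R) ⊆ e₀.target :=
      (ball_subset_closedBall.trans hsub2).trans hcT
    have hnn : ∀ z ∈ e₀.target, 0 ≤ χ (e₀.symm z) * (Real.exp (α * u (e₀.symm z)) * D e₀ z) := by
      intro z hz
      have := hD0 e₀ (e₀.symm z) (At.of_target h₀.1 hz)
      rw [e₀.right_inv hz] at this
      exact mul_nonneg (hχr _).1 (mul_nonneg (Real.exp_pos _).le this)
    have hint : IntegrableOn
        (fun z => χ (e₀.symm z) * (Real.exp (α * u (e₀.symm z)) * D e₀ z)) e₀.target := by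
      refine INT.integrableOn_chart (K := K4) ?_ hK4c.isClosed hK4s ?_
      · exact hDχ.continuousOn h₀.1
      · intro z hz hzK
        have : e₀.symm z ∈ (e₀.source ∩ e₀ ⁻¹' ball (e₀ x₀) (4 * R))ᶜ := by
          rintro ⟨_, h2⟩
          apply hzK
          have h2' : e₀ (e₀.symm z) ∈ ball (e₀ x₀) (4 * R) := h2
          rw [e₀.right_inv hz] at h2'
          exact ⟨z, ball_subset_closedBall h2', rfl⟩
        have := hχ1 this
        simp only [Pi.zero_apply] at this
        rw [this, zero_mul]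
    have h1 : ∫ z in ball (e₀ x₀) (2 * R),
        χ (e₀.symm z) * (Real.exp (α * u (e₀.symm z)) * D e₀ z) ≤
        ∫ z in e₀.target, χ (e₀.symm z) * (Real.exp (α * u (e₀.symm z)) * D e₀ z) := by
      refine setIntegral_mono_set hint ?_ hball.eventuallyLE
      filter_upwards [self_mem_ae_restrict e₀.open_target.measurableSet] with z hz
      exact hnn z hz
    refine le_trans ?_ h1
    have hexpint : IntegrableOn (fun z => d * Real.exp (α * u (e₀.symm z)))
        (ball (e₀ x₀) (2 * R)) := by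
      refine IntegrableOn.mono_set ?_ (ball_subset_closedBall (x := e₀ x₀) (ε := 2 * R))
      refine ContinuousOn.integrableOn_compact (isCompact_closedBall _ _) ?_
      refine continuousOn_const.mul (Real.continuous_exp.comp_continuousOn
        (continuousOn_const.mul (hucont.comp_continuousOn ?_)))
      exact e₀.continuousOn_symm.mono (hsub2.trans hcT)
    calc d * δ ≤ d * ∫ z in ball (e₀ x₀) (2 * R), Real.exp (α * u (e₀.symm z)) :=
          mul_le_mul_of_nonneg_left (hlow u hu hp) hd0.le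
      _ = ∫ z in ball (e₀ x₀) (2 * R), d * Real.exp (α * u (e₀.symm z)) := by
          rw [integral_const_mul]
      _ ≤ _ := by
          refine setIntegral_mono_on hexpint (hint.mono_set hball) measurableSet_ball ?_
          intro z hz
          have hzK : e₀.symm z ∈ K := ⟨z, ball_subset_closedBall hz, rfl⟩
          have h3 := hχ0 hzK
          simp only [Pi.one_apply] at h3
          have h4 : d < D e₀ z :=
            (hsub (h4R ▸ (hsub2 (ball_subset_closedBall hz)))).2
          rw [h3, one_mul, mul_comm]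
          exact mul_le_mul_of_nonneg_left h4.le (Real.exp_pos _).le
  · intro e' x hx hxK
    have : x ∈ (e₀.source ∩ e₀ ⁻¹' ball (e₀ x₀) (4 * R))ᶜ := by
      rintro ⟨h1, h2⟩
      exact hxK ⟨e₀ x, ball_subset_closedBall h2, e₀.left_inv h1⟩
    have h5 := hχ1 this
    simp only [Pi.zero_apply] at h5
    show χ (e'.symm (e' x)) * _ = 0
    rw [e'.left_inv hx.2, h5, zero_mul]

end Vale.Agent.P272.K.QN
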